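import Vale.Agent.P207.SPH.H40.Avg

/-!
# P207, SPH, [RAY] row W4, abstract half

Bounds of `K` give bounds of `U`, and an extreme mean value of `tr U` forces `K` to be a constant
multiple of the identity.
-/

open Matrix MeasureTheory Set Filter Topology

noncomputable section

namespace Vale.Agent.P207.SPH.H169

variable {m : ℕ} {X : Type} [TopologicalSpace X]

/-- the unit sphere -/
def Sp (m : ℕ) : Set (Fin m → ℝ) := {x | x ⬝ᵥ x = 1}

theorem continuous_dot : Continuous fun p : (Fin m → ℝ) × (Fin m → ℝ) => p.1 ⬝ᵥ p.2 := by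
  unfold dotProduct
  fun_prop

theorem isCompact_Sp (m : ℕ) : IsCompact (Sp m) := by
  refine Metric.isCompact_of_isClosed_isBounded ?_ ?_
  · exact isClosed_eq (continuous_dot.comp (continuous_id.prodMk continuous_id)) continuous_const
  · refine (Metric.isBounded_iff_subset_closedBall 0).2 ⟨1, fun x hx => ?_⟩
    rw [mem_closedBall_zero_iff, pi_norm_le_iff_of_nonneg zero_le_one]
    intro i
    have h1 : x i * x i ≤ 1 := by
      have h2 : x ⬝ᵥ x = 1 := hx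
      rw [← h2]
      exact Finset.single_le_sum (f := fun j => x j * x j) (fun j _ => mul_self_nonneg _)
        (Finset.mem_univ i)
    rw [Real.norm_eq_abs, abs_le]
    constructor <;> nlinarith

theorem continuous_quad {U : X → Mt m} (hU : Continuous U) :
    Continuous fun p : X × (Fin m → ℝ) => p.2 ⬝ᵥ (U p.1 *ᵥ p.2) := by
  have h1 : Continuous fun p : X × (Fin m → ℝ) => U p.1 *ᵥ p.2 :=
    (hU.comp continuous_fst).matrix_mulVec continuous_snd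
  exact continuous_dot.comp (continuous_snd.prodMk h1)

theorem dot_pos {x : Fin m → ℝ} (hx : x ≠ 0) : 0 < x ⬝ᵥ x := by
  have h1 := Matrix.dotProduct_star_self_pos_iff (v := x) |>.2 hx
  simpa using h1

theorem quad_smul (A : Mt m) (c : ℝ) (x : Fin m → ℝ) :
    (c • x) ⬝ᵥ (A *ᵥ (c • x)) = c ^ 2 * (x ⬝ᵥ (A *ᵥ x)) := by
  rw [Matrix.mulVec_smul, smul_dotProduct, dotProduct_smul, smul_eq_mul, smul_eq_mul]
  ring

/-- homogeneity, from the unit sphere to all vectors -/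
theorem of_sphere_lo {A : Mt m} {c : ℝ} (h : ∀ x ∈ Sp m, c ≤ x ⬝ᵥ (A *ᵥ x)) (x : Fin m → ℝ) :
    c * (x ⬝ᵥ x) ≤ x ⬝ᵥ (A *ᵥ x) := by
  by_cases hx : x = 0
  · subst hx
    simp
  have h1 := dot_pos hx
  set r : ℝ := Real.sqrt (x ⬝ᵥ x) with hr
  have hr0 : 0 < r := Real.sqrt_pos.2 h1
  have hr2 : r ^ 2 = x ⬝ᵥ x := Real.sq_sqrt h1.le
  have h2 : r⁻¹ • x ∈ Sp m := by
    have h3 : (r⁻¹ • x) ⬝ᵥ (r⁻¹ • x) = 1 := by
      rw [smul_dotProduct, dotProduct_smul, smul_eq_mul, smul_eq_mul, ← hr2]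
      field_simp
    exact h3
  have h3 := h _ h2
  rw [quad_smul, inv_pow, hr2] at h3
  have h4 : c * (x ⬝ᵥ x) ≤ (x ⬝ᵥ x)⁻¹ * (x ⬝ᵥ (A *ᵥ x)) * (x ⬝ᵥ x) :=
    mul_le_mul_of_nonneg_right h3 h1.le
  have h5 : (x ⬝ᵥ x)⁻¹ * (x ⬝ᵥ (A *ᵥ x)) * (x ⬝ᵥ x) = x ⬝ᵥ (A *ᵥ x) := by
    field_simp
  rwa [h5] at h4

/-- the derivative of a diagonal value of `U` along an orbit -/
theorem hasDerivAt_quad {M : ℝ → Mt m} {M' : Mt m} {t : ℝ} (h : MD M M' t) (x : Fin m → ℝ) :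
    HasDerivAt (fun s => x ⬝ᵥ (M s *ᵥ x)) (x ⬝ᵥ (M' *ᵥ x)) t := by
  have h1 : HasDerivAt (fun s => ∑ i, x i * ∑ j, M s i j * x j) (∑ i, x i * ∑ j, M' i j * x j) t :=
    HasDerivAt.fun_sum fun i _ => (HasDerivAt.fun_sum fun j _ => (h i j).mul_const (x j)).const_mul
      (x i)
  exact h1

theorem quad_sq (A : Mt m) (hA : Aᵀ = A) (x : Fin m → ℝ) :
    x ⬝ᵥ ((A * A) *ᵥ x) = (A *ᵥ x) ⬝ᵥ (A *ᵥ x) := by
  rw [← Matrix.mulVec_mulVec, Matrix.dotProduct_mulVec, ← Matrix.mulVec_transpose, hA]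

/-- at a minimum of a symmetric form on the unit sphere the vector is an eigenvector -/
theorem eig_of_min {A : Mt m} (hA : Aᵀ = A) {c : ℝ} (h : ∀ x, c * (x ⬝ᵥ x) ≤ x ⬝ᵥ (A *ᵥ x))
    {x : Fin m → ℝ} (hx : x ⬝ᵥ (A *ᵥ x) = c * (x ⬝ᵥ x)) : A *ᵥ x = c • x := by
  have hsym : ∀ y : Fin m → ℝ, x ⬝ᵥ (A *ᵥ y) = y ⬝ᵥ (A *ᵥ x) := by
    intro y
    rw [Matrix.dotProduct_mulVec, ← Matrix.mulVec_transpose, hA, dotProduct_comm]
  have h1 : ∀ (y : Fin m → ℝ) (t : ℝ),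
      0 ≤ 2 * t * (y ⬝ᵥ (A *ᵥ x) - c * (y ⬝ᵥ x)) +
        t ^ 2 * (y ⬝ᵥ (A *ᵥ y) - c * (y ⬝ᵥ y)) := by
    intro y t
    have h2 := h (x + t • y)
    have h3 : (x + t • y) ⬝ᵥ (x + t • y) = x ⬝ᵥ x + 2 * t * (y ⬝ᵥ x) + t ^ 2 * (y ⬝ᵥ y) := by
      simp only [add_dotProduct, dotProduct_add, smul_dotProduct, dotProduct_smul, smul_eq_mul]
      rw [dotProduct_comm x y]
      ring
    have h4 : (x + t • y) ⬝ᵥ (A *ᵥ (x + t • y)) =
        x ⬝ᵥ (A *ᵥ x) + 2 * t * (y ⬝ᵥ (A *ᵥ x)) + t ^ 2 * (y ⬝ᵥ (A *ᵥ y)) := by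
      simp only [Matrix.mulVec_add, Matrix.mulVec_smul, add_dotProduct, dotProduct_add,
        smul_dotProduct, dotProduct_smul, smul_eq_mul]
      rw [hsym y]
      ring
    rw [h3, h4, hx] at h2
    linarith
  set w : Fin m → ℝ := A *ᵥ x - c • x with hw
  have h2 : w ⬝ᵥ (A *ᵥ x) - c * (w ⬝ᵥ x) = w ⬝ᵥ w := by
    conv_rhs => rw [hw]
    rw [← hw, dotProduct_sub, dotProduct_smul, smul_eq_mul]
  by_contra hne
  have hw0 : w ≠ 0 := fun h3 => hne (sub_eq_zero.1 h3)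
  have h3 := dot_pos hw0
  set B : ℝ := w ⬝ᵥ (A *ᵥ w) - c * (w ⬝ᵥ w) with hB
  have h4 : 0 ≤ B := by
    have := h w
    linarith
  have h5 := h1 w (-(w ⬝ᵥ w) / (B + 1))
  rw [h2] at h5
  have hB1 : 0 < B + 1 := by linarith
  have h6 : 2 * (-(w ⬝ᵥ w) / (B + 1)) * (w ⬝ᵥ w) + (-(w ⬝ᵥ w) / (B + 1)) ^ 2 * B =
      (w ⬝ᵥ w) ^ 2 * (B + 1)⁻¹ ^ 2 * (-2 * (B + 1) + B) := by
    field_simp
  rw [h6] at h5
  have h7 : 0 < (w ⬝ᵥ w) ^ 2 * (B + 1)⁻¹ ^ 2 := by positivity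
  nlinarith

/-- Cauchy-Schwarz -/
theorem cs (x y : Fin m → ℝ) : (x ⬝ᵥ y) ^ 2 ≤ (x ⬝ᵥ x) * (y ⬝ᵥ y) := by
  have h1 := Finset.sum_mul_sq_le_sq_mul_sq Finset.univ x y
  unfold dotProduct
  simpa only [sq] using h1

/-- a local extremum of the diagonal value along the orbit: the Riccati equation -/
theorem riccati_zero (D : Sys m X) {f : X} {x : Fin m → ℝ}
    (h : IsLocalExtr (fun s => x ⬝ᵥ (D.U (D.Φ s f) *ᵥ x)) 0) :
    x ⬝ᵥ (D.K f *ᵥ x) = (D.U f *ᵥ x) ⬝ᵥ (D.U f *ᵥ x) := by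
  have h1 := hasDerivAt_quad (D.dU f 0) x
  have h2 := h.hasDerivAt_eq_zero h1
  rw [D.zero, Matrix.sub_mulVec, dotProduct_sub, quad_sq _ (D.sU f)] at h2
  linarith

/-- **(A), lower bound** -/
theorem loU_of [CompactSpace X] (D : Sys m X) {a : ℝ} (ha : 0 ≤ a)
    (hK : ∀ f x, a ^ 2 * (x ⬝ᵥ x) ≤ x ⬝ᵥ (D.K f *ᵥ x)) :
    ∀ f x, a * (x ⬝ᵥ x) ≤ x ⬝ᵥ (D.U f *ᵥ x) := by
  intro f x
  by_cases hne : ((univ : Set X) ×ˢ Sp m).Nonempty
  · obtain ⟨⟨f₀, x₀⟩, ⟨-, hx₀⟩, hmin⟩ := (isCompact_univ.prod (isCompact_Sp m)).exists_isMinOn hne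
      (continuous_quad D.cU).continuousOn
    have hx1 : x₀ ⬝ᵥ x₀ = 1 := hx₀
    set c : ℝ := x₀ ⬝ᵥ (D.U f₀ *ᵥ x₀) with hc
    have h1 : ∀ f, ∀ x ∈ Sp m, c ≤ x ⬝ᵥ (D.U f *ᵥ x) := fun f x hx =>
      hmin (show (f, x) ∈ (univ : Set X) ×ˢ Sp m from ⟨mem_univ f, hx⟩)
    have h2 : ∀ f x, c * (x ⬝ᵥ x) ≤ x ⬝ᵥ (D.U f *ᵥ x) := fun f x => of_sphere_lo (h1 f) x
    have h3 : D.U f₀ *ᵥ x₀ = c • x₀ := eig_of_min (D.sU f₀) (h2 f₀) (by rw [hx1, mul_one])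
    have h4 := riccati_zero D (f := f₀) (x := x₀) (Or.inl (Eventually.of_forall fun s => by
      show x₀ ⬝ᵥ (D.U (D.Φ 0 f₀) *ᵥ x₀) ≤ _
      rw [D.zero]
      exact h1 _ _ hx₀))
    rw [h3, smul_dotProduct, dotProduct_smul, smul_eq_mul, smul_eq_mul, hx1] at h4
    have h5 := hK f₀ x₀
    rw [hx1] at h5
    have h6 : 0 < c := by
      have := D.loU f₀ x₀
      rw [hx1] at this
      linarith [D.a_pos]
    have h7 : a ≤ c := by nlinarith
    have h8 : 0 ≤ x ⬝ᵥ x := by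
      by_cases hx : x = 0
      · subst hx; simp
      · exact (dot_pos hx).le
    exact (mul_le_mul_of_nonneg_right h7 h8).trans (h2 f x)
  · refine of_sphere_lo (fun y hy => absurd ⟨(f, y), mem_univ f, hy⟩ hne) x

/-- **(A), upper bound** -/
theorem hiU_of [CompactSpace X] (D : Sys m X) {b : ℝ} (hb : 0 ≤ b)
    (hK : ∀ f x, x ⬝ᵥ (D.K f *ᵥ x) ≤ b ^ 2 * (x ⬝ᵥ x)) :
    ∀ f x, x ⬝ᵥ (D.U f *ᵥ x) ≤ b * (x ⬝ᵥ x) := by
  have key : ∀ f, ∀ x ∈ Sp m, x ⬝ᵥ (D.U f *ᵥ x) ≤ b := by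
    intro f x hx
    obtain ⟨⟨f₀, x₀⟩, ⟨-, hx₀⟩, hmax⟩ := (isCompact_univ.prod (isCompact_Sp m)).exists_isMaxOn
      ⟨(f, x), mem_univ f, hx⟩ (continuous_quad D.cU).continuousOn
    have hx1 : x₀ ⬝ᵥ x₀ = 1 := hx₀
    have h1 : ∀ f, ∀ x ∈ Sp m, x ⬝ᵥ (D.U f *ᵥ x) ≤ x₀ ⬝ᵥ (D.U f₀ *ᵥ x₀) := fun f x hx =>
      hmax (show (f, x) ∈ (univ : Set X) ×ˢ Sp m from ⟨mem_univ f, hx⟩)
    have h4 := riccati_zero D (f := f₀) (x := x₀) (Or.inr (Eventually.of_forall fun s => by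
      show _ ≤ x₀ ⬝ᵥ (D.U (D.Φ 0 f₀) *ᵥ x₀)
      rw [D.zero]
      exact h1 _ _ hx₀))
    have h5 := hK f₀ x₀
    have h6 := cs x₀ (D.U f₀ *ᵥ x₀)
    rw [hx1] at h5 h6
    refine (h1 f x hx).trans ?_
    by_contra hlt
    push Not at hlt
    nlinarith
  intro f x
  have h1 := of_sphere_lo (A := -D.U f) (c := -b) (fun y hy => by
    rw [Matrix.neg_mulVec, dotProduct_neg]
    exact neg_le_neg (key f y hy)) x
  rw [Matrix.neg_mulVec, dotProduct_neg] at h1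
  linarith

/-- the trace as a sum of diagonal values -/
theorem trace_eq_sum (A : Mt m) : A.trace = ∑ i, (Pi.single i (1 : ℝ)) ⬝ᵥ (A *ᵥ Pi.single i 1) := by
  unfold Matrix.trace
  refine Finset.sum_congr rfl fun i _ => ?_
  rw [Matrix.mulVec_single_one, single_one_dotProduct]
  rfl

theorem single_dot (i : Fin m) :
    (Pi.single i (1 : ℝ) : Fin m → ℝ) ⬝ᵥ (Pi.single i (1 : ℝ)) = 1 := by
  rw [single_one_dotProduct, Pi.single_eq_same]

theorem trace_ge {A : Mt m} {a : ℝ} (h : ∀ x, a * (x ⬝ᵥ x) ≤ x ⬝ᵥ (A *ᵥ x)) : m * a ≤ A.trace := by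
  rw [trace_eq_sum]
  calc (m : ℝ) * a = ∑ _i : Fin m, a := by simp
    _ ≤ _ := Finset.sum_le_sum fun i _ => by
      have h1 := h (Pi.single i 1)
      rwa [single_dot, mul_one] at h1

/-- a symmetric matrix which is at least `a` and has trace `m a` is `a` -/
theorem eq_of_trace {A : Mt m} (hA : Aᵀ = A) {a : ℝ} (h : ∀ x, a * (x ⬝ᵥ x) ≤ x ⬝ᵥ (A *ᵥ x))
    (ht : A.trace = m * a) : A = a • (1 : Mt m) := by
  have hp : (A - a • (1 : Mt m)).PosSemidef := by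
    refine Matrix.PosSemidef.of_dotProduct_mulVec_nonneg ?_ fun x => ?_
    · rw [Matrix.IsHermitian, conjTranspose_eq_transpose_of_trivial, transpose_sub, hA,
        transpose_smul, transpose_one]
    · rw [star_trivial, Matrix.sub_mulVec, dotProduct_sub, Matrix.smul_mulVec, Matrix.one_mulVec,
        dotProduct_smul, smul_eq_mul]
      linarith [h x]
  have h1 : (A - a • (1 : Mt m)).trace = 0 := by
    rw [Matrix.trace_sub, Matrix.trace_smul, Matrix.trace_one, ht, Fintype.card_fin, smul_eq_mul]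
    ring
  exact sub_eq_zero.1 (hp.trace_eq_zero_iff.1 h1)

/-- if `U` is constant then `K = U²` -/
theorem K_of_const (D : Sys m X) {c : ℝ} (h : ∀ f, D.U f = c • (1 : Mt m)) (f : X) :
    D.K f = (c ^ 2) • (1 : Mt m) := by
  ext i j
  have h1 := D.dU f 0 i j
  have h2 : (fun s => D.U (D.Φ s f) i j) = fun _ => (c • (1 : Mt m)) i j := by
    funext s
    rw [h]
  rw [h2, D.zero] at h1
  have h3 := h1.unique (hasDerivAt_const (0 : ℝ) ((c • (1 : Mt m)) i j))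
  rw [Matrix.sub_apply] at h3
  have h4 : D.U f * D.U f = (c ^ 2) • (1 : Mt m) := by
    rw [h f, Matrix.smul_mul, Matrix.one_mul, smul_smul, sq]
  rw [← h4]
  linarith

/-- a continuous nonnegative function with integral at most `0` vanishes -/
theorem eq_zero_of_int [CompactSpace X] [MeasurableSpace X] [BorelSpace X] (μ : Measure X)
    [IsProbabilityMeasure μ] [μ.IsOpenPosMeasure] {F : X → ℝ} (hF : Continuous F)
    (h0 : ∀ f, 0 ≤ F f) (h1 : ∫ f, F f ∂μ ≤ 0) (f : X) : F f = 0 := by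
  have h4 : 0 ≤ F := h0
  have h6 := (integral_eq_zero_iff_of_nonneg h4 (integrable_cont μ hF)).1
    (le_antisymm h1 (integral_nonneg h4))
  exact congrFun ((hF.ae_eq_iff_eq μ continuous_zero).1 h6) f

/-- **(B), lower form** -/
theorem cst_lo [CompactSpace X] [MeasurableSpace X] [BorelSpace X] (μ : Measure X)
    [IsProbabilityMeasure μ] [μ.IsOpenPosMeasure] (D : Sys m X) {a : ℝ} (ha : 0 ≤ a)
    (hK : ∀ f x, a ^ 2 * (x ⬝ᵥ x) ≤ x ⬝ᵥ (D.K f *ᵥ x))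
    (hh : ∫ f, (D.U f).trace ∂μ ≤ m * a) :
    (∀ f, D.U f = a • (1 : Mt m)) ∧ ∀ f, D.K f = (a ^ 2) • (1 : Mt m) := by
  have h1 := loU_of D ha hK
  have h2 : ∀ f, (D.U f).trace - m * a = 0 := fun f =>
    eq_zero_of_int μ (F := fun f => (D.U f).trace - m * a) (D.cU.matrix_trace.sub continuous_const)
      (fun f => sub_nonneg.2 (trace_ge (h1 f))) (by
        rw [integral_sub (integrable_cont μ D.cU.matrix_trace) (integrable_const _),
          integral_const, probReal_univ, one_smul]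
        linarith) f
  have h3 : ∀ f, D.U f = a • (1 : Mt m) := fun f =>
    eq_of_trace (D.sU f) (h1 f) (by linarith [h2 f])
  exact ⟨h3, K_of_const D h3⟩

/-- **(B), upper form** -/
theorem cst_hi [CompactSpace X] [MeasurableSpace X] [BorelSpace X] (μ : Measure X)
    [IsProbabilityMeasure μ] [μ.IsOpenPosMeasure] (D : Sys m X) {b : ℝ} (hb : 0 ≤ b)
    (hK : ∀ f x, x ⬝ᵥ (D.K f *ᵥ x) ≤ b ^ 2 * (x ⬝ᵥ x))
    (hh : m * b ≤ ∫ f, (D.U f).trace ∂μ) :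
    (∀ f, D.U f = b • (1 : Mt m)) ∧ ∀ f, D.K f = (b ^ 2) • (1 : Mt m) := by
  have h1 := hiU_of D hb hK
  have h1' : ∀ f x, -b * (x ⬝ᵥ x) ≤ x ⬝ᵥ ((-D.U f) *ᵥ x) := fun f x => by
    rw [Matrix.neg_mulVec, dotProduct_neg]
    linarith [h1 f x]
  have ht : ∀ f, m * -b ≤ -(D.U f).trace := fun f => by
    have := trace_ge (h1' f)
    rwa [Matrix.trace_neg] at this
  have h2 : ∀ f, m * b - (D.U f).trace = 0 := fun f =>
    eq_zero_of_int μ (F := fun f => m * b - (D.U f).trace) (continuous_const.sub D.cU.matrix_trace)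
      (fun f => by linarith [ht f]) (by
        rw [integral_sub (integrable_const _) (integrable_cont μ D.cU.matrix_trace),
          integral_const, probReal_univ, one_smul]
        linarith) f
  have h3 : ∀ f, D.U f = b • (1 : Mt m) := fun f => by
    have h4 := eq_of_trace (A := -D.U f) (a := -b) (by rw [transpose_neg, D.sU]) (h1' f) (by
      rw [Matrix.trace_neg]
      linarith [h2 f])
    rw [neg_smul] at h4
    exact neg_injective h4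
  exact ⟨h3, K_of_const D h3⟩

end Vale.Agent.P207.SPH.H169
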